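import Vale.Agent.helper7.StarSigns

/-!
The exponential cost: the Gaussian integrals are explicit.
-/

open MeasureTheory Set

namespace Vale.Agent.helper7

noncomputable section

variable {d : ℕ}

/-- The exponential cost. -/
def expCost (x : Sp d) : ℝ := Real.exp (‖x‖ ^ 2 / 50)

lemma expCost_pos (x : Sp d) : 0 < expCost x := Real.exp_pos _

lemma norm_sq_convex : ConvexOn ℝ univ (fun x : Sp d => ‖x‖ ^ 2) := by
  refine ⟨convex_univ, fun x _ y _ a b ha hb hab => ?_⟩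
  simp only [smul_eq_mul]
  have hb' : b = 1 - a := by linarith
  subst hb'
  have h1 : ‖a • x + (1 - a) • y‖ ^ 2 = a ^ 2 * ‖x‖ ^ 2 + 2 * a * (1 - a) * inner ℝ x y +
      (1 - a) ^ 2 * ‖y‖ ^ 2 := by
    rw [norm_add_sq_real, norm_smul, norm_smul, inner_smul_left, inner_smul_right]
    simp only [Real.norm_eq_abs, mul_pow, sq_abs]
    simp
    ring
  have h2 : 0 ≤ ‖x - y‖ ^ 2 := by positivity
  have h3 : ‖x - y‖ ^ 2 = ‖x‖ ^ 2 - 2 * inner ℝ x y + ‖y‖ ^ 2 := norm_sub_sq_real x y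
  rw [h1]
  have h4 : 0 ≤ a * (1 - a) := mul_nonneg ha hb
  nlinarith [mul_nonneg h4 h2]

lemma expCost_convex : ConvexOn ℝ univ (expCost : Sp d → ℝ) := by
  have h1 : ConvexOn ℝ univ (fun x : Sp d => ‖x‖ ^ 2 / 50) := by
    have := norm_sq_convex (d := d)
    refine ⟨convex_univ, fun x hx y hy a b ha hb hab => ?_⟩
    have h2 := this.2 hx hy ha hb hab
    simp only [smul_eq_mul] at h2 ⊢
    linarith
  refine ⟨convex_univ, fun x hx y hy a b ha hb hab => ?_⟩
  have h2 := h1.2 hx hy ha hb hab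
  have h3 := convexOn_exp.2 (mem_univ (‖x‖ ^ 2 / 50)) (mem_univ (‖y‖ ^ 2 / 50)) ha hb hab
  unfold expCost
  exact (Real.exp_le_exp.mpr h2).trans h3

/-- Gaussian integral on Euclidean space as a lower integral. -/
lemma lintegral_gauss_space (b : ℝ) (hb : 0 < b) :
    ∫⁻ x : Sp d, ENNReal.ofReal (Real.exp (-b * ‖x‖ ^ 2)) =
      ENNReal.ofReal ((Real.pi / b) ^ ((d : ℝ) / 2)) := by
  have hval := GaussianFourier.integral_rexp_neg_mul_sq_norm (V := Sp d) hb
  have hdim : Module.finrank ℝ (Sp d) = d := finrank_euclideanSpace_fin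
  rw [hdim] at hval
  have hpos : 0 < (Real.pi / b) ^ ((d : ℝ) / 2) :=
    Real.rpow_pos_of_pos (div_pos Real.pi_pos hb) _
  have hint : Integrable (fun x : Sp d => Real.exp (-b * ‖x‖ ^ 2)) := by
    by_contra hcon
    have := integral_undef hcon
    rw [hval] at this
    exact hpos.ne' this
  rw [← ofReal_integral_eq_lintegral_ofReal hint
    (Filter.Eventually.of_forall (fun x => (Real.exp_pos _).le)), hval]

/-- The exponential bound for arbitrary weights. -/
theorem exp_signs (v : ℕ → Sp d) (hv : ∀ i, ‖v i‖ ≤ 1) (w : ℕ → ℝ) (hw : ∀ i, 0 ≤ w i) (N : ℕ) :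
    ∃ ε : ℕ → ℝ, (∀ i, ε i = 1 ∨ ε i = -1) ∧
      ∑ i ∈ Finset.range N, w i * expCost (∑ j ∈ Finset.range (i + 1), ε j • v j) ≤
        (2 : ℝ) ^ ((d : ℝ) / 2) * ∑ i ∈ Finset.range N, w i := by
  have hψ : ∀ k, ConvexOn ℝ univ (fun x : Sp d => w k * expCost x) := by
    intro k
    refine ⟨convex_univ, fun x hx y hy a b ha hb hab => ?_⟩
    have h2 := expCost_convex.2 hx hy ha hb hab
    simp only [smul_eq_mul] at h2 ⊢
    have := mul_le_mul_of_nonneg_left h2 (hw k)
    nlinarith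
  have hψ0 : ∀ k (x : Sp d), 0 ≤ w k * expCost x := fun k x =>
    mul_nonneg (hw k) (expCost_pos x).le
  obtain ⟨ε, hε, h⟩ := master_signs v hv (fun k x => w k * expCost x) hψ hψ0 N
  refine ⟨ε, hε, ?_⟩
  have hZ : ∫⁻ x : Sp d, ENNReal.ofReal (gaussW x) =
      ENNReal.ofReal ((Real.pi / (1 / 25)) ^ ((d : ℝ) / 2)) := by
    rw [← lintegral_gauss_space (1 / 25) (by norm_num)]
    apply lintegral_congr
    intro x
    unfold gaussW
    congr 2
    ring
  have hterm : ∀ i, ∫⁻ x : Sp d, ENNReal.ofReal (w i * expCost x * gaussW x) =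
      ENNReal.ofReal (w i * (Real.pi / (1 / 50)) ^ ((d : ℝ) / 2)) := by
    intro i
    rw [ENNReal.ofReal_mul (hw i), ← lintegral_gauss_space (1 / 50) (by norm_num),
      ← lintegral_const_mul _ (by fun_prop)]
    apply lintegral_congr
    intro x
    rw [← ENNReal.ofReal_mul (hw i)]
    congr 1
    unfold expCost gaussW
    rw [mul_assoc, ← Real.exp_add]
    congr 2
    ring
  rw [hZ] at h
  simp only [hterm] at h
  set S := ∑ i ∈ Finset.range N, w i * expCost (∑ j ∈ Finset.range (i + 1), ε j • v j) with hS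
  have hS0 : 0 ≤ S := Finset.sum_nonneg (fun i _ => mul_nonneg (hw i) (expCost_pos _).le)
  set Z := (Real.pi / (1 / 25 : ℝ)) ^ ((d : ℝ) / 2) with hZdef
  set Z' := (Real.pi / (1 / 50 : ℝ)) ^ ((d : ℝ) / 2) with hZ'def
  have hZpos : 0 < Z := Real.rpow_pos_of_pos (by positivity) _
  have hZ'pos : 0 < Z' := Real.rpow_pos_of_pos (by positivity) _
  rw [← ENNReal.ofReal_mul hS0, ← ENNReal.ofReal_sum_of_nonneg
    (fun i _ => mul_nonneg (hw i) hZ'pos.le)] at h
  have hreal := (ENNReal.ofReal_le_ofReal_iff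
    (Finset.sum_nonneg (fun i _ => mul_nonneg (hw i) hZ'pos.le))).mp h
  rw [← Finset.sum_mul] at hreal
  have hratio : Z' = (2 : ℝ) ^ ((d : ℝ) / 2) * Z := by
    rw [hZ'def, hZdef, ← Real.mul_rpow (by norm_num) (by positivity)]
    congr 1
    ring
  rw [hratio] at hreal
  have : S * Z ≤ ((2 : ℝ) ^ ((d : ℝ) / 2) * ∑ i ∈ Finset.range N, w i) * Z := by
    calc S * Z ≤ (∑ i ∈ Finset.range N, w i) * ((2 : ℝ) ^ ((d : ℝ) / 2) * Z) := hreal
      _ = _ := by ring
  exact le_of_mul_le_mul_right this hZpos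

end

end Vale.Agent.helper7
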