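import Vale.Agent.helper7.StarExp

/-!
Restatement of the exponential bound for sequences indexed by `Fin N`.
-/

open MeasureTheory Set

namespace Vale.Agent.helper7

noncomputable section

variable {d : ℕ}

/-- Sums over an initial segment of `Fin N` as sums over a range. -/
lemma sum_Iic_eq_range {α : Type*} [AddCommMonoid α] {N : ℕ} (k : Fin N) (g : ℕ → α) :
    ∑ i ∈ Finset.Iic k, g i.val = ∑ j ∈ Finset.range (k.val + 1), g j := by
  refine Finset.sum_nbij (fun i => i.val) ?_ ?_ ?_ ?_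
  · intro i hi
    have := Finset.mem_Iic.mp hi
    exact Finset.mem_range.mpr (Nat.lt_succ_of_le (Fin.le_def.mp this))
  · intro a _ b _ h
    exact Fin.ext h
  · intro j hj
    have hj' := Finset.mem_range.mp (Finset.mem_coe.mp hj)
    have hjN : j < N := lt_of_le_of_lt (Nat.le_of_lt_succ hj') k.isLt
    refine ⟨⟨j, hjN⟩, ?_, rfl⟩
    exact Finset.mem_coe.mpr (Finset.mem_Iic.mpr (Fin.le_def.mpr (Nat.le_of_lt_succ hj')))
  · intro i _
    rfl

/-- Extension of a finite sequence by zero. -/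
def extendZero {α : Type*} [Zero α] {N : ℕ} (v : Fin N → α) (i : ℕ) : α :=
  if h : i < N then v ⟨i, h⟩ else 0

lemma extendZero_val {α : Type*} [Zero α] {N : ℕ} (v : Fin N → α) (i : Fin N) :
    extendZero v i.val = v i := by
  unfold extendZero
  rw [dif_pos i.isLt]

/-- Exponential bound with `Fin N` indices. -/
theorem exp_signs_fin {N : ℕ} (v : Fin N → Sp d) (w : Fin N → ℝ)
    (hv : ∀ i, ‖v i‖ ≤ 1) (hw : ∀ i, 0 ≤ w i) :
    ∃ ε : Fin N → ℝ, (∀ i, ε i = 1 ∨ ε i = -1) ∧
      ∑ k, w k * Real.exp (‖∑ i ∈ Finset.Iic k, ε i • v i‖ ^ 2 / 50) ≤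
        (2 : ℝ) ^ ((d : ℝ) / 2) * ∑ k, w k := by
  have hv' : ∀ i, ‖extendZero v i‖ ≤ 1 := by
    intro i
    unfold extendZero
    split_ifs with h
    · exact hv _
    · simp
  have hw' : ∀ i, 0 ≤ extendZero w i := by
    intro i
    unfold extendZero
    split_ifs with h
    · exact hw _
    · exact le_rfl
  obtain ⟨ε, hε, h⟩ := exp_signs (extendZero v) hv' (extendZero w) hw' N
  refine ⟨fun i => ε i.val, fun i => hε i.val, ?_⟩
  rw [Finset.sum_range] at h
  rw [Finset.sum_range] at h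
  have e : ∀ k : Fin N, ∑ i ∈ Finset.Iic k, ε i.val • v i =
      ∑ j ∈ Finset.range (k.val + 1), ε j • extendZero v j := by
    intro k
    rw [← sum_Iic_eq_range k (fun j => ε j • extendZero v j)]
    apply Finset.sum_congr rfl
    intro i _
    rw [extendZero_val]
  simp only [e]
  simp only [extendZero_val] at h
  exact h

/-- Second moment bound from the exponential bound. -/
lemma second_moment_of_exp {N : ℕ} (a w : Fin N → ℝ) (hw : ∀ i, 0 ≤ w i)
    (h : ∑ k, w k * Real.exp (a k / 50) ≤ (2 : ℝ) ^ ((d : ℝ) / 2) * ∑ k, w k) :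
    ∑ k, w k * a k ≤ 18 * (d : ℝ) * ∑ k, w k := by
  set c : ℝ := (d : ℝ) / 2 * Real.log 2 with hc
  have he : Real.exp c = (2 : ℝ) ^ ((d : ℝ) / 2) := by
    rw [Real.rpow_def_of_pos (by norm_num : (0 : ℝ) < 2), hc, mul_comm]
  have hepos : 0 < Real.exp c := Real.exp_pos _
  have hW : 0 ≤ ∑ k, w k := Finset.sum_nonneg (fun i _ => hw i)
  have hpoint : ∀ k, Real.exp c * (w k * (a k / 50 - c + 1)) ≤ w k * Real.exp (a k / 50) := by
    intro k
    have h1 := Real.add_one_le_exp (a k / 50 - c)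
    have h2 : Real.exp (a k / 50) = Real.exp c * Real.exp (a k / 50 - c) := by
      rw [← Real.exp_add]
      congr 1
      ring
    rw [h2]
    have h3 := mul_le_mul_of_nonneg_left h1 (mul_nonneg hepos.le (hw k))
    nlinarith
  have hsum : Real.exp c * ∑ k, w k * (a k / 50 - c + 1) ≤ Real.exp c * ∑ k, w k := by
    rw [Finset.mul_sum]
    rw [← he] at h
    exact (Finset.sum_le_sum (fun k _ => hpoint k)).trans h
  have hsum' : ∑ k, w k * (a k / 50 - c + 1) ≤ ∑ k, w k := le_of_mul_le_mul_left hsum hepos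
  have hexp : ∑ k, w k * (a k / 50 - c + 1) =
      (∑ k, w k * a k) / 50 + (1 - c) * ∑ k, w k := by
    rw [Finset.sum_div, Finset.mul_sum, ← Finset.sum_add_distrib]
    apply Finset.sum_congr rfl
    intro k _
    ring
  rw [hexp] at hsum'
  have hlog : Real.log 2 < 0.7 := by
    have := Real.log_two_lt_d9
    linarith
  have hc2 : 50 * c ≤ 18 * (d : ℝ) := by
    rw [hc]
    nlinarith
  nlinarith

end

end Vale.Agent.helper7
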