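import Mathlib

/-!
One dimensional part of the star lemma: a convex function on the line and its
star transform, integrated against a Gaussian weight.
-/

open MeasureTheory Set

namespace Vale.Agent.helper7

/-- Slopes of a convex function increase. -/
lemma slope_le_of_convex {f : ℝ → ℝ} (hf : ConvexOn ℝ univ f) {m q p t : ℝ}
    (hmq : m < q) (hqp : q ≤ p) (ht : 0 < t) :
    (f q - f m) / (q - m) ≤ (f (p + t) - f p) / t := by
  have h2 : p < p + t := by linarith
  rcases hqp.lt_or_eq with hlt | heq
  · have h1 := hf.slope_mono_adjacent (mem_univ m) (mem_univ p) hmq hlt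
    have h3 := hf.slope_mono_adjacent (mem_univ q) (mem_univ (p + t)) hlt h2
    have e : p + t - p = t := by ring
    rw [e] at h3
    exact h1.trans h3
  · subst heq
    have h1 := hf.slope_mono_adjacent (mem_univ m) (mem_univ (q + t)) hmq h2
    have e : q + t - q = t := by ring
    rw [e] at h1
    exact h1

/-- Total mass of a Gaussian weight. -/
lemma lintegral_gauss (K b a : ℝ) (hK : 0 ≤ K) (hb : 0 < b) :
    ∫⁻ s : ℝ, ENNReal.ofReal (K * Real.exp (-(b * (s - a) ^ 2))) =
      ENNReal.ofReal (K * Real.sqrt (Real.pi / b)) := by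
  have h1 : ∫⁻ s : ℝ, ENNReal.ofReal (K * Real.exp (-(b * (s - a) ^ 2))) =
      ∫⁻ s : ℝ, ENNReal.ofReal (K * Real.exp (-(b * s ^ 2))) :=
    lintegral_sub_right_eq_self (fun s : ℝ => ENNReal.ofReal (K * Real.exp (-(b * s ^ 2)))) a
  rw [h1]
  have hint : Integrable (fun s : ℝ => K * Real.exp (-(b * s ^ 2))) := by
    have := (integrable_exp_neg_mul_sq hb).const_mul K
    simpa [neg_mul] using this
  rw [← ofReal_integral_eq_lintegral_ofReal hint
    (Filter.Eventually.of_forall (fun s => mul_nonneg hK (Real.exp_pos _).le))]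
  congr 1
  rw [integral_const_mul]
  have := integral_gaussian b
  simp only [neg_mul] at this
  rw [this]

/-- Mass inequality: the far region carries at least twice the mass of the middle. -/
lemma mass_ineq (K b a c t : ℝ) (hK : 0 ≤ K) (hb : 0 < b) (ht : 0 ≤ t)
    (hS : 8 * t ≤ Real.sqrt (Real.pi / b)) :
    2 * ∫⁻ s in Icc (c - t) (c + t), ENNReal.ofReal (K * Real.exp (-(b * (s - a) ^ 2))) ≤
      ∫⁻ s in (Ioo (c - 2 * t) (c + 2 * t))ᶜ, ENNReal.ofReal (K * Real.exp (-(b * (s - a) ^ 2))) := by
  set g : ℝ → ENNReal := fun s => ENNReal.ofReal (K * Real.exp (-(b * (s - a) ^ 2))) with hg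
  have hgle : ∀ s, g s ≤ ENNReal.ofReal K := fun s => by
    apply ENNReal.ofReal_le_ofReal
    have h1 : Real.exp (-(b * (s - a) ^ 2)) ≤ 1 := by
      apply Real.exp_le_one_iff.mpr
      have : 0 ≤ b * (s - a) ^ 2 := by positivity
      linarith
    nlinarith
  have hgm : Measurable g := by
    apply Measurable.ennreal_ofReal
    fun_prop
  have hA : ∫⁻ s in Icc (c - t) (c + t), g s ≤ ENNReal.ofReal (K * (2 * t)) := by
    calc ∫⁻ s in Icc (c - t) (c + t), g s
        ≤ ∫⁻ _ in Icc (c - t) (c + t), ENNReal.ofReal K := lintegral_mono (fun s => hgle s)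
      _ = ENNReal.ofReal K * volume (Icc (c - t) (c + t)) := by
          rw [setLIntegral_const]
      _ = ENNReal.ofReal (K * (2 * t)) := by
          rw [Real.volume_Icc, ENNReal.ofReal_mul hK]
          congr 2; ring
  have hB : ∫⁻ s in Ioo (c - 2 * t) (c + 2 * t), g s ≤ ENNReal.ofReal (K * (4 * t)) := by
    calc ∫⁻ s in Ioo (c - 2 * t) (c + 2 * t), g s
        ≤ ∫⁻ _ in Ioo (c - 2 * t) (c + 2 * t), ENNReal.ofReal K := lintegral_mono (fun s => hgle s)
      _ = ENNReal.ofReal K * volume (Ioo (c - 2 * t) (c + 2 * t)) := by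
          rw [setLIntegral_const]
      _ = ENNReal.ofReal (K * (4 * t)) := by
          rw [Real.volume_Ioo, ENNReal.ofReal_mul hK]
          congr 2; ring
  have htotal : ∫⁻ s, g s = ENNReal.ofReal (K * Real.sqrt (Real.pi / b)) :=
    lintegral_gauss K b a hK hb
  have hsplit : (∫⁻ s in Ioo (c - 2 * t) (c + 2 * t), g s) +
      (∫⁻ s in (Ioo (c - 2 * t) (c + 2 * t))ᶜ, g s) = ∫⁻ s, g s :=
    lintegral_add_compl g (measurableSet_Ioo : MeasurableSet (Ioo (c - 2 * t) (c + 2 * t)))
  set X := ∫⁻ s in (Ioo (c - 2 * t) (c + 2 * t))ᶜ, g s with hX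
  have h8 : ENNReal.ofReal (K * (4 * t)) + ENNReal.ofReal (K * (4 * t)) ≤
      ENNReal.ofReal (K * (4 * t)) + X := by
    calc ENNReal.ofReal (K * (4 * t)) + ENNReal.ofReal (K * (4 * t))
        = ENNReal.ofReal (K * (8 * t)) := by
          rw [← ENNReal.ofReal_add (by positivity) (by positivity)]
          congr 1; ring
      _ ≤ ENNReal.ofReal (K * Real.sqrt (Real.pi / b)) :=
          ENNReal.ofReal_le_ofReal (mul_le_mul_of_nonneg_left hS hK)
      _ = (∫⁻ s in Ioo (c - 2 * t) (c + 2 * t), g s) + X := by rw [hsplit, htotal]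
      _ ≤ ENNReal.ofReal (K * (4 * t)) + X := add_le_add hB le_rfl
  have h4 : ENNReal.ofReal (K * (4 * t)) ≤ X :=
    (ENNReal.add_le_add_iff_left ENNReal.ofReal_ne_top).mp h8
  calc 2 * ∫⁻ s in Icc (c - t) (c + t), g s
      ≤ 2 * ENNReal.ofReal (K * (2 * t)) := by gcongr
    _ = ENNReal.ofReal (K * (4 * t)) := by
        rw [show (2 : ENNReal) = ENNReal.ofReal 2 by simp,
          ← ENNReal.ofReal_mul (by norm_num)]
        congr 1; ring
    _ ≤ X := h4

/-- Right of the point `c + t` a convex function with equal values at `c - t`, `c + t`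
is at least that value. -/
lemma right_ge {f : ℝ → ℝ} (hf : ConvexOn ℝ univ f) {c t s : ℝ} (ht : 0 < t)
    (hV : f (c + t) = f (c - t)) (hs : c + t ≤ s) : f (c + t) ≤ f s := by
  rcases hs.lt_or_eq with h | h
  · have h1 := hf.slope_mono_adjacent (mem_univ (c - t)) (mem_univ s)
      (show c - t < c + t by linarith) h
    rw [hV, sub_self, zero_div] at h1
    have hpos : 0 < s - (c + t) := by linarith
    have := (div_nonneg_iff.mp h1)
    rcases this with h2 | h2
    · rw [hV]; linarith [h2.1]
    · linarith [h2.2]
  · rw [h]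

/-- The region to the right of `c + 2 t`. -/
lemma right_region {f : ℝ → ℝ} (hf : ConvexOn ℝ univ f) {c t m s : ℝ} (ht : 0 < t)
    (hV : f (c + t) = f (c - t)) (hm : m ∈ Icc (c - t) (c + t)) (hs : c + 2 * t ≤ s) :
    f (s - 3 * t) ≤ f (s - t) ∧ (f (c + t) - f m) / 2 ≤ f s - f (s - t) := by
  have hst : c + t ≤ s - t := by linarith
  have hmono : ∀ x y, c + t ≤ x → x < y → f x ≤ f y := by
    intro x y hx hxy
    have h1 := hf.slope_mono_adjacent (mem_univ (c - t)) (mem_univ y)
      (show c - t < x by linarith) hxy
    have h2 : 0 ≤ (f x - f (c - t)) / (x - (c - t)) := by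
      apply div_nonneg
      · have := right_ge hf ht hV hx
        linarith
      · linarith
    have h3 := h2.trans h1
    have hpos : 0 < y - x := by linarith
    have := (div_nonneg_iff.mp h3)
    rcases this with h4 | h4
    · linarith [h4.1]
    · linarith [h4.2]
  constructor
  · by_cases h : s - 3 * t ≤ c + t
    · have h1 : f (s - 3 * t) ≤ max (f (c - t)) (f (c + t)) :=
        hf.le_max_of_mem_Icc (mem_univ _) (mem_univ _) ⟨by linarith, h⟩
      rw [← hV, max_self] at h1
      exact h1.trans (right_ge hf ht hV hst)
    · exact hmono _ _ (by linarith) (by linarith)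
  · have hfs : f (s - t) ≤ f s := hmono _ _ hst (by linarith)
    rcases hm.2.lt_or_eq with hlt | heq
    · have h1 := slope_le_of_convex hf hlt hst ht
      have e : s - t + t = s := by ring
      rw [e] at h1
      have hpos : 0 < c + t - m := by linarith
      have hle : c + t - m ≤ 2 * t := by linarith [hm.1]
      have hVm : 0 ≤ f (c + t) - f m := by
        have : f m ≤ max (f (c - t)) (f (c + t)) :=
          hf.le_max_of_mem_Icc (mem_univ _) (mem_univ _) hm
        rw [← hV, max_self] at this
        linarith
      have h2 : (f (c + t) - f m) / (2 * t) ≤ (f (c + t) - f m) / (c + t - m) :=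
        div_le_div_of_nonneg_left hVm hpos hle
      have h3 := h2.trans h1
      rw [div_le_div_iff₀ (by positivity) ht] at h3
      nlinarith
    · rw [heq, sub_self, zero_div]
      linarith

/-- The region to the left of `c - 2 t`, by reflection. -/
lemma left_region {f : ℝ → ℝ} (hf : ConvexOn ℝ univ f) {c t m s : ℝ} (ht : 0 < t)
    (hV : f (c + t) = f (c - t)) (hm : m ∈ Icc (c - t) (c + t)) (hs : s ≤ c - 2 * t) :
    f (s + 3 * t) ≤ f (s + t) ∧ (f (c - t) - f m) / 2 ≤ f s - f (s + t) := by
  have hg : ConvexOn ℝ univ (fun x => f (-x)) := by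
    refine ⟨convex_univ, fun x _ y _ a b ha hb hab => ?_⟩
    have := hf.2 (mem_univ (-x)) (mem_univ (-y)) ha hb hab
    simp only [smul_eq_mul] at this ⊢
    have e : -(a * x + b * y) = a * -x + b * -y := by ring
    rw [e]
    exact this
  have := @right_region (fun x => f (-x)) hg (-c) t (-m) (-s) ht
    (by
      show f (-(-c + t)) = f (-(-c - t))
      have e1 : -(-c + t) = c - t := by ring
      have e2 : -(-c - t) = c + t := by ring
      rw [e1, e2, hV])
    ⟨by linarith [hm.2], by linarith [hm.1]⟩ (by linarith)
  have e1 : -(-s - 3 * t) = s + 3 * t := by ring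
  have e2 : -(-s - t) = s + t := by ring
  have e3 : -(-c + t) = c - t := by ring
  have e4 : -(-m) = m := by ring
  have e5 : -(-s) = s := by ring
  simp only [e1, e2, e3, e4, e5] at this
  exact this

/-- The one dimensional star inequality. -/
theorem star_line {f T : ℝ → ℝ} (hf : ConvexOn ℝ univ f) (hfc : Continuous f)
    (hf0 : ∀ s, 0 ≤ f s) (hT0 : ∀ s, 0 ≤ T s)
    (K b a t : ℝ) (hK : 0 ≤ K) (hb : 0 < b) (ht : 0 < t)
    (hS : 8 * t ≤ Real.sqrt (Real.pi / b))
    (hT : ∀ r ∈ Icc (-2 : ℝ) 2, ∀ s, T s ≤ max (f (s + (r + 1) * t)) (f (s + (r - 1) * t))) :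
    ∫⁻ s, ENNReal.ofReal (T s * (K * Real.exp (-(b * (s - a) ^ 2)))) ≤
      ∫⁻ s, ENNReal.ofReal (f s * (K * Real.exp (-(b * (s - a) ^ 2)))) := by
  set g : ℝ → ℝ := fun s => K * Real.exp (-(b * (s - a) ^ 2)) with hg
  have hg0 : ∀ s, 0 ≤ g s := fun s => mul_nonneg hK (Real.exp_pos _).le
  by_cases hc : ∃ c, f (c + t) = f (c - t)
  · obtain ⟨c, hV⟩ := hc
    obtain ⟨m, hm, hmin⟩ := (isCompact_Icc (a := c - t) (b := c + t)).exists_isMinOn
      ⟨c, by constructor <;> linarith⟩ hfc.continuousOn
    set V := f (c + t) with hVdef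
    set D := V - f m with hD
    have hD0 : 0 ≤ D := by
      have : f m ≤ f (c + t) := hmin (show c + t ∈ Icc (c - t) (c + t) by
        constructor <;> linarith)
      simp only [hD, hVdef]; linarith
    set A := Icc (c - t) (c + t) with hA
    set B := Ioo (c - 2 * t) (c + 2 * t) with hB
    have hmidT : ∀ s, c - 2 * t ≤ s → s ≤ c + 2 * t → T s ≤ V := by
      intro s h1 h2
      have hr : (c - s) / t ∈ Icc (-2 : ℝ) 2 := by
        constructor
        · rw [le_div_iff₀ ht]; linarith
        · rw [div_le_iff₀ ht]; linarith
      have := hT _ hr s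
      have e1 : s + ((c - s) / t + 1) * t = c + t := by field_simp; ring
      have e2 : s + ((c - s) / t - 1) * t = c - t := by field_simp; ring
      rw [e1, e2, ← hV, max_self] at this
      exact this
    have hpoint : ∀ s, ENNReal.ofReal (T s * g s) +
        Bᶜ.indicator (fun s => ENNReal.ofReal (D / 2) * ENNReal.ofReal (g s)) s ≤
        ENNReal.ofReal (f s * g s) +
        A.indicator (fun s => ENNReal.ofReal D * ENNReal.ofReal (g s)) s := by
      intro s
      by_cases hsB : s ∈ B
      · have h1 : s ∉ Bᶜ := fun h => h hsB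
        rw [indicator_of_notMem h1, add_zero]
        have hTV := hmidT s hsB.1.le hsB.2.le
        by_cases hsA : s ∈ A
        · rw [indicator_of_mem hsA, ← ENNReal.ofReal_mul hD0,
            ← ENNReal.ofReal_add (mul_nonneg (hf0 s) (hg0 s)) (mul_nonneg hD0 (hg0 s))]
          apply ENNReal.ofReal_le_ofReal
          have hfm : f m ≤ f s := hmin hsA
          have : T s ≤ f s + D := by simp only [hD]; linarith
          nlinarith [hg0 s]
        · rw [indicator_of_notMem hsA, add_zero]
          apply ENNReal.ofReal_le_ofReal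
          have hge : V ≤ f s := by
            by_cases h : c + t ≤ s
            · exact right_ge hf ht hV h
            · by_cases h' : s ≤ c - t
              · have := @right_ge (fun x => f (-x))
                  (by
                    refine ⟨convex_univ, fun x _ y _ a b ha hb hab => ?_⟩
                    have := hf.2 (mem_univ (-x)) (mem_univ (-y)) ha hb hab
                    simp only [smul_eq_mul] at this ⊢
                    have e : -(a * x + b * y) = a * -x + b * -y := by ring
                    rw [e]
                    exact this) (-c) t (-s) ht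
                  (by
                    show f (-(-c + t)) = f (-(-c - t))
                    have e1 : -(-c + t) = c - t := by ring
                    have e2 : -(-c - t) = c + t := by ring
                    rw [e1, e2]
                    exact hV.symm) (by linarith)
                have this' : f (-(-c + t)) ≤ f (-(-s)) := this
                have e1 : -(-c + t) = c - t := by ring
                have e5 : -(-s) = s := by ring
                rw [e1, e5, ← hV] at this'
                exact this'
              · exact absurd ⟨not_le.mp h' |>.le, not_le.mp h |>.le⟩ hsA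
          exact mul_le_mul_of_nonneg_right (hTV.trans hge) (hg0 s)
      · have hsA : s ∉ A := fun h => hsB ⟨by linarith [h.1], by linarith [h.2]⟩
        rw [indicator_of_notMem hsA, add_zero, indicator_of_mem (show s ∈ Bᶜ from hsB),
          ← ENNReal.ofReal_mul (by positivity),
          ← ENNReal.ofReal_add (mul_nonneg (hT0 s) (hg0 s)) (mul_nonneg (by positivity) (hg0 s))]
        apply ENNReal.ofReal_le_ofReal
        have hdrop : T s + D / 2 ≤ f s := by
          by_cases hright : c + 2 * t ≤ s
          · obtain ⟨h1, h2⟩ := right_region hf ht hV hm hright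
            have hr := hT (-2) (by constructor <;> norm_num) s
            have e1 : s + (-2 + 1) * t = s - t := by ring
            have e2 : s + (-2 - 1) * t = s - 3 * t := by ring
            rw [e1, e2, max_eq_left h1] at hr
            simp only [hD]
            linarith
          · have hleft : s ≤ c - 2 * t := by
              by_contra hcon
              exact hsB ⟨not_le.mp hcon, not_le.mp hright⟩
            obtain ⟨h1, h2⟩ := left_region hf ht hV hm hleft
            have hr := hT 2 (by constructor <;> norm_num) s
            have e1 : s + (2 + 1) * t = s + 3 * t := by ring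
            have e2 : s + (2 - 1) * t = s + t := by ring
            rw [e1, e2, max_eq_right h1] at hr
            simp only [hD]
            have hV' : V = f (c - t) := hV
            rw [hV']
            linarith
        nlinarith [hg0 s]
    have hgm : Measurable (fun s => ENNReal.ofReal (g s)) := by
      apply Measurable.ennreal_ofReal
      simp only [hg]
      fun_prop
    have hint : ∫⁻ s, (ENNReal.ofReal (T s * g s) +
        Bᶜ.indicator (fun s => ENNReal.ofReal (D / 2) * ENNReal.ofReal (g s)) s) ≤
        ∫⁻ s, (ENNReal.ofReal (f s * g s) +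
        A.indicator (fun s => ENNReal.ofReal D * ENNReal.ofReal (g s)) s) := lintegral_mono hpoint
    rw [lintegral_add_right _ ((hgm.const_mul _).indicator measurableSet_Ioo.compl),
      lintegral_add_right _ ((hgm.const_mul _).indicator measurableSet_Icc),
      lintegral_indicator measurableSet_Ioo.compl, lintegral_indicator measurableSet_Icc,
      lintegral_const_mul _ hgm, lintegral_const_mul _ hgm] at hint
    set X := ∫⁻ s in Bᶜ, ENNReal.ofReal (g s) with hX
    set Y := ∫⁻ s in A, ENNReal.ofReal (g s) with hY
    have hmass : 2 * Y ≤ X := mass_ineq K b a c t hK hb ht.le hS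
    have hXfin : X ≠ ⊤ := by
      have h1 : X ≤ ∫⁻ s, ENNReal.ofReal (g s) := setLIntegral_le_lintegral _ _
      have h2 : ∫⁻ s, ENNReal.ofReal (g s) = ENNReal.ofReal (K * Real.sqrt (Real.pi / b)) :=
        lintegral_gauss K b a hK hb
      rw [h2] at h1
      exact ne_top_of_le_ne_top ENNReal.ofReal_ne_top h1
    have hDY : ENNReal.ofReal D * Y ≤ ENNReal.ofReal (D / 2) * X := by
      have e : ENNReal.ofReal D = ENNReal.ofReal (D / 2) * 2 := by
        rw [show (2 : ENNReal) = ENNReal.ofReal 2 by simp,
          ← ENNReal.ofReal_mul (by positivity)]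
        congr 1; ring
      rw [e, mul_assoc]
      gcongr
    have hfin : ENNReal.ofReal (D / 2) * X ≠ ⊤ := ENNReal.mul_ne_top ENNReal.ofReal_ne_top hXfin
    have h3 := hint.trans (add_le_add le_rfl hDY)
    exact (ENNReal.add_le_add_iff_right hfin).mp h3
  · push Not at hc
    have hh : Continuous (fun x => f (x + t) - f (x - t)) := by fun_prop
    have hsign : (∀ x, f (x + t) - f (x - t) < 0) ∨ (∀ x, 0 < f (x + t) - f (x - t)) := by
      by_contra hcon
      push Not at hcon
      obtain ⟨⟨x, hx⟩, ⟨y, hy⟩⟩ := hcon
      have hmem : (0 : ℝ) ∈ Icc (f (y + t) - f (y - t)) (f (x + t) - f (x - t)) := ⟨hy, hx⟩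
      obtain ⟨z, hz⟩ := intermediate_value_univ y x hh hmem
      exact hc z (by simpa [sub_eq_zero] using hz)
    apply lintegral_mono
    intro s
    apply ENNReal.ofReal_le_ofReal
    apply mul_le_mul_of_nonneg_right _ (hg0 s)
    rcases hsign with h | h
    · have hr := hT 1 (by constructor <;> norm_num) s
      have e1 : s + (1 + 1) * t = s + t + t := by ring
      have e2 : s + (1 - 1) * t = s + t - t := by ring
      rw [e1, e2] at hr
      have := h (s + t)
      rw [max_eq_right (by linarith)] at hr
      have e3 : s + t - t = s := by ring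
      rwa [e3] at hr
    · have hr := hT (-1) (by constructor <;> norm_num) s
      have e1 : s + (-1 + 1) * t = s - t + t := by ring
      have e2 : s + (-1 - 1) * t = s - t - t := by ring
      rw [e1, e2] at hr
      have := h (s - t)
      rw [max_eq_left (by linarith)] at hr
      have e3 : s - t + t = s := by ring
      rwa [e3] at hr

end Vale.Agent.helper7
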