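import Vale.Agent.helper7.StarFin

/-!
The master inequality with `Fin N` indices.
-/

open MeasureTheory Set

namespace Vale.Agent.helper7

noncomputable section

variable {d : ℕ}

/-- Master inequality with `Fin N` indices and the Gaussian weight written out. -/
theorem master_signs_fin {N : ℕ} (v : Fin N → Sp d) (ψ : Fin N → Sp d → ℝ)
    (hv : ∀ i, ‖v i‖ ≤ 1) (hψ : ∀ k, ConvexOn ℝ univ (ψ k)) (hψ0 : ∀ k x, 0 ≤ ψ k x) :
    ∃ ε : Fin N → ℝ, (∀ i, ε i = 1 ∨ ε i = -1) ∧
      ENNReal.ofReal (∑ k, ψ k (∑ i ∈ Finset.Iic k, ε i • v i)) *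
        ∫⁻ x : Sp d, ENNReal.ofReal (Real.exp (-((1 / 25 : ℝ) * ‖x‖ ^ 2))) ≤
      ∑ k, ∫⁻ x : Sp d, ENNReal.ofReal (ψ k x * Real.exp (-((1 / 25 : ℝ) * ‖x‖ ^ 2))) := by
  have hv' : ∀ i, ‖extendZero v i‖ ≤ 1 := by
    intro i
    unfold extendZero
    split_ifs with h
    · exact hv _
    · simp
  have hψ' : ∀ k, ConvexOn ℝ univ (extendZero ψ k) := by
    intro k
    unfold extendZero
    split_ifs with h
    · exact hψ _
    · exact convexOn_const 0 convex_univ
  have hψ0' : ∀ k x, 0 ≤ extendZero ψ k x := by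
    intro k x
    unfold extendZero
    split_ifs with h
    · exact hψ0 _ _
    · exact le_rfl
  obtain ⟨ε, hε, h⟩ := master_signs (extendZero v) hv' (extendZero ψ) hψ' hψ0' N
  refine ⟨fun i => ε i.val, fun i => hε i.val, ?_⟩
  rw [Finset.sum_range, Finset.sum_range] at h
  have e : ∀ k : Fin N, ∑ i ∈ Finset.Iic k, ε i.val • v i =
      ∑ j ∈ Finset.range (k.val + 1), ε j • extendZero v j := by
    intro k
    rw [← sum_Iic_eq_range k (fun j => ε j • extendZero v j)]
    apply Finset.sum_congr rfl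
    intro i _
    rw [extendZero_val]
  simp only [e]
  simp only [extendZero_val] at h
  exact h

end

end Vale.Agent.helper7
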