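import Vale.Agent.helper7.StarFin

/-!
Average form of the Steinitz problem: rearranging by signs, as in the Chobanyan transference, halves
the excess of the trapezoid sum of a convex even cost.
-/

open MeasureTheory Set

namespace Vale.Agent.helper7

noncomputable section

variable {d : ℕ}

lemma expCost_neg (x : Sp d) : expCost (-x) = expCost x := by
  unfold expCost
  rw [norm_neg]

lemma expCost_zero : expCost (0 : Sp d) = 1 := by
  unfold expCost
  simp

lemma expCost_half_add (x y : Sp d) :
    expCost ((1 / 2 : ℝ) • (x + y)) ≤ (expCost x + expCost y) / 2 := by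
  have h := expCost_convex (d := d).2 (mem_univ x) (mem_univ y)
    (show (0 : ℝ) ≤ 1 / 2 by norm_num) (show (0 : ℝ) ≤ 1 / 2 by norm_num) (by norm_num)
  rw [← smul_add] at h
  simp only [smul_eq_mul] at h
  linarith

lemma expCost_half_sub (x y : Sp d) :
    expCost ((1 / 2 : ℝ) • (y - x)) ≤ (expCost x + expCost y) / 2 := by
  have h := expCost_half_add y (-x)
  rw [expCost_neg, ← sub_eq_add_neg] at h
  linarith

lemma sum_Iio_eq_range {α : Type*} [AddCommMonoid α] {N : ℕ} (k : Fin N) (g : ℕ → α) :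
    ∑ i ∈ Finset.Iio k, g i.val = ∑ j ∈ Finset.range k.val, g j := by
  refine Finset.sum_nbij (fun i => i.val) ?_ ?_ ?_ ?_
  · intro i hi
    exact Finset.mem_range.mpr (Fin.lt_def.mp (Finset.mem_Iio.mp hi))
  · intro a _ b _ h
    exact Fin.ext h
  · intro j hj
    have hj' := Finset.mem_range.mp (Finset.mem_coe.mp hj)
    have hjN : j < N := hj'.trans k.isLt
    refine ⟨⟨j, hjN⟩, ?_, rfl⟩
    exact Finset.mem_coe.mpr (Finset.mem_Iio.mpr (Fin.lt_def.mpr hj'))
  · intro i _
    rfl

/-- The trapezoid shift: for a zero sum sequence the sums before and after agree. -/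
lemma shift_sum {N : ℕ} (x : Fin N → Sp d) (hx : ∑ i, x i = 0) (g : Sp d → ℝ) :
    ∑ k, g (∑ i ∈ Finset.Iic k, x i) = ∑ k, g (∑ i ∈ Finset.Iio k, x i) := by
  set S : ℕ → Sp d := fun n => ∑ j ∈ Finset.range n, extendZero x j with hS
  have e1 : ∀ k : Fin N, ∑ i ∈ Finset.Iic k, x i = S (k.val + 1) := by
    intro k
    rw [hS]
    simp only
    rw [← sum_Iic_eq_range k (extendZero x)]
    exact Finset.sum_congr rfl (fun i _ => (extendZero_val x i).symm)
  have e2 : ∀ k : Fin N, ∑ i ∈ Finset.Iio k, x i = S k.val := by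
    intro k
    rw [hS]
    simp only
    rw [← sum_Iio_eq_range k (extendZero x)]
    exact Finset.sum_congr rfl (fun i _ => (extendZero_val x i).symm)
  have hS0 : S 0 = 0 := by simp [hS]
  have hSN : S N = 0 := by
    rw [hS]
    simp only
    rw [Finset.sum_range]
    simp only [extendZero_val]
    exact hx
  simp only [e1, e2]
  rw [Fin.sum_univ_eq_sum_range (fun k => g (S (k + 1))) N,
    Fin.sum_univ_eq_sum_range (fun k => g (S k)) N]
  have h1 := Finset.sum_range_succ (fun k => g (S k)) N
  have h2 := Finset.sum_range_succ' (fun k => g (S k)) N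
  rw [hSN] at h1
  rw [hS0] at h2
  have := h1.symm.trans h2
  exact (add_right_cancel this).symm

/-- Signs with control of the sum of the cost at the two ends of each step. -/
lemma double_bound (u : ℕ → Sp d) (hu : ∀ i, ‖u i‖ ≤ 1) (N : ℕ) :
    ∃ ε : ℕ → ℝ, (∀ i, ε i = 1 ∨ ε i = -1) ∧
      ∑ a ∈ Finset.range N, (expCost (∑ j ∈ Finset.range (a + 1), ε j • u j) +
        expCost (∑ j ∈ Finset.range a, ε j • u j)) ≤
        2 * (N : ℝ) * (2 : ℝ) ^ ((d : ℝ) / 2) := by
  have hE : (1 : ℝ) ≤ (2 : ℝ) ^ ((d : ℝ) / 2) :=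
    Real.one_le_rpow (by norm_num) (by positivity)
  cases N with
  | zero =>
    exact ⟨fun _ => 1, fun _ => Or.inl rfl, by simp⟩
  | succ M =>
    obtain ⟨ε, hε, h⟩ := exp_signs u hu (fun i => if i < M then 2 else 1)
      (fun i => by split_ifs <;> norm_num) (M + 1)
    refine ⟨ε, hε, ?_⟩
    set S : ℕ → Sp d := fun n => ∑ j ∈ Finset.range n, ε j • u j with hS
    have hS0 : S 0 = 0 := by simp [hS]
    change ∑ a ∈ Finset.range (M + 1), (expCost (S (a + 1)) + expCost (S a)) ≤ _
    change ∑ i ∈ Finset.range (M + 1), (if i < M then (2 : ℝ) else 1) * expCost (S (i + 1)) ≤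
      _ * ∑ i ∈ Finset.range (M + 1), (if i < M then (2 : ℝ) else 1) at h
    have hw : ∑ i ∈ Finset.range (M + 1), (if i < M then (2 : ℝ) else 1) = 2 * (M : ℝ) + 1 := by
      rw [Finset.sum_range_succ, if_neg (lt_irrefl M)]
      congr 1
      rw [Finset.sum_congr rfl (fun i hi => if_pos (Finset.mem_range.mp hi))]
      simp
      ring
    have hl : ∑ i ∈ Finset.range (M + 1), (if i < M then (2 : ℝ) else 1) * expCost (S (i + 1)) =
        2 * ∑ i ∈ Finset.range M, expCost (S (i + 1)) + expCost (S (M + 1)) := by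
      rw [Finset.sum_range_succ, if_neg (lt_irrefl M), one_mul, Finset.mul_sum]
      congr 1
      exact Finset.sum_congr rfl (fun i hi => by rw [if_pos (Finset.mem_range.mp hi)])
    rw [hw, hl] at h
    have hr : ∑ a ∈ Finset.range (M + 1), (expCost (S (a + 1)) + expCost (S a)) =
        2 * ∑ i ∈ Finset.range M, expCost (S (i + 1)) + expCost (S (M + 1)) + expCost (S 0) := by
      rw [Finset.sum_add_distrib, Finset.sum_range_succ (fun a => expCost (S (a + 1))),
        Finset.sum_range_succ' (fun a => expCost (S a))]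
      ring
    rw [hr, hS0, expCost_zero]
    have hcast : ((M + 1 : ℕ) : ℝ) = (M : ℝ) + 1 := by push_cast; ring
    rw [hcast]
    nlinarith

/-- The sorting key of the sign rearrangement: the plus elements in order, then the minus elements
in reverse order. -/
def signKey {N : ℕ} (ε : Fin N → ℝ) (a : Fin N) : ℕ :=
  if ε a = 1 then a.val else 2 * N - a.val

lemma signKey_plus {N : ℕ} {ε : Fin N → ℝ} {a : Fin N} (h : ε a = 1) : signKey ε a = a.val := by
  unfold signKey
  rw [if_pos h]

lemma signKey_minus {N : ℕ} {ε : Fin N → ℝ} {a : Fin N} (h : ε a ≠ 1) :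
    signKey ε a = 2 * N - a.val := by
  unfold signKey
  rw [if_neg h]

lemma signKey_inj {N : ℕ} (ε : Fin N → ℝ) : Function.Injective (signKey ε) := by
  intro a b hab
  apply Fin.ext
  have ha := a.isLt
  have hb := b.isLt
  by_cases h1 : ε a = 1 <;> by_cases h2 : ε b = 1
  · rw [signKey_plus h1, signKey_plus h2] at hab; exact hab
  · rw [signKey_plus h1, signKey_minus h2] at hab; omega
  · rw [signKey_minus h1, signKey_plus h2] at hab; omega
  · rw [signKey_minus h1, signKey_minus h2] at hab; omega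

lemma key_le_plus {N : ℕ} {ε : Fin N → ℝ} {a : Fin N} (h : ε a = 1) (b : Fin N) :
    signKey ε b ≤ signKey ε a ↔ (ε b = 1 ∧ b ≤ a) := by
  have ha := a.isLt
  have hb := b.isLt
  rw [signKey_plus h, Fin.le_def]
  by_cases h2 : ε b = 1
  · rw [signKey_plus h2]; simp [h2]
  · rw [signKey_minus h2]; simp only [h2, false_and, iff_false]; omega

lemma key_lt_plus {N : ℕ} {ε : Fin N → ℝ} {a : Fin N} (h : ε a = 1) (b : Fin N) :
    signKey ε b < signKey ε a ↔ (ε b = 1 ∧ b < a) := by
  have ha := a.isLt
  have hb := b.isLt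
  rw [signKey_plus h, Fin.lt_def]
  by_cases h2 : ε b = 1
  · rw [signKey_plus h2]; simp [h2]
  · rw [signKey_minus h2]; simp only [h2, false_and, iff_false]; omega

lemma key_le_minus {N : ℕ} {ε : Fin N → ℝ} {a : Fin N} (h : ε a ≠ 1) (b : Fin N) :
    signKey ε b ≤ signKey ε a ↔ (ε b = 1 ∨ a ≤ b) := by
  have ha := a.isLt
  have hb := b.isLt
  rw [signKey_minus h, Fin.le_def]
  by_cases h2 : ε b = 1
  · rw [signKey_plus h2]; simp only [h2, true_or, iff_true]; omega
  · rw [signKey_minus h2]; simp only [h2, false_or]; omega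

lemma key_lt_minus {N : ℕ} {ε : Fin N → ℝ} {a : Fin N} (h : ε a ≠ 1) (b : Fin N) :
    signKey ε b < signKey ε a ↔ (ε b = 1 ∨ a < b) := by
  have ha := a.isLt
  have hb := b.isLt
  rw [signKey_minus h, Fin.lt_def]
  by_cases h2 : ε b = 1
  · rw [signKey_plus h2]; simp only [h2, true_or, iff_true]; omega
  · rw [signKey_minus h2]; simp only [h2, false_or]; omega

section Pointwise

variable {N : ℕ} (u : Fin N → Sp d) (ε : Fin N → ℝ)

/-- Partial sums written over the whole index set. -/
lemma sum_Iic_ite (f : Fin N → Sp d) (a : Fin N) :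
    ∑ b ∈ Finset.Iic a, f b = ∑ b, if b ≤ a then f b else 0 := by
  rw [← Finset.sum_filter]
  apply Finset.sum_congr _ (fun _ _ => rfl)
  ext b
  simp

lemma sum_Iio_ite (f : Fin N → Sp d) (a : Fin N) :
    ∑ b ∈ Finset.Iio a, f b = ∑ b, if b < a then f b else 0 := by
  rw [← Finset.sum_filter]
  apply Finset.sum_congr _ (fun _ _ => rfl)
  ext b
  simp

/-- Sum over the elements with key at most that of `a`. -/
def keySumLe (a : Fin N) : Sp d := ∑ b, if signKey ε b ≤ signKey ε a then u b else 0

/-- Sum over the elements with key below that of `a`. -/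
def keySumLt (a : Fin N) : Sp d := ∑ b, if signKey ε b < signKey ε a then u b else 0

variable (hε : ∀ i, ε i = 1 ∨ ε i = -1) (hu : ∑ i, u i = 0)

include hε in
lemma keySumLe_plus {a : Fin N} (h : ε a = 1) :
    keySumLe u ε a = (1 / 2 : ℝ) • (∑ b ∈ Finset.Iic a, u b + ∑ b ∈ Finset.Iic a, ε b • u b) := by
  unfold keySumLe
  rw [sum_Iic_ite, sum_Iic_ite, ← Finset.sum_add_distrib, Finset.smul_sum]
  apply Finset.sum_congr rfl
  intro b _
  simp only [key_le_plus h b]
  by_cases hba : b ≤ a
  · rcases hε b with hb | hb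
    · simp only [hb, hba, and_self, if_true, one_smul]
      module
    · have hne : (-1 : ℝ) ≠ 1 := by norm_num
      simp only [hb, hba, if_true, hne, and_true, if_false, neg_smul, one_smul]
      module
  · simp [hba]

include hε in
lemma keySumLt_plus {a : Fin N} (h : ε a = 1) :
    keySumLt u ε a = (1 / 2 : ℝ) • (∑ b ∈ Finset.Iio a, u b + ∑ b ∈ Finset.Iio a, ε b • u b) := by
  unfold keySumLt
  rw [sum_Iio_ite, sum_Iio_ite, ← Finset.sum_add_distrib, Finset.smul_sum]
  apply Finset.sum_congr rfl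
  intro b _
  simp only [key_lt_plus h b]
  by_cases hba : b < a
  · rcases hε b with hb | hb
    · simp only [hb, hba, and_self, if_true, one_smul]
      module
    · have hne : (-1 : ℝ) ≠ 1 := by norm_num
      simp only [hb, hba, if_true, hne, and_true, if_false, neg_smul, one_smul]
      module
  · simp [hba]

include hε hu in
lemma keySumLe_minus {a : Fin N} (h : ε a ≠ 1) :
    keySumLe u ε a = (1 / 2 : ℝ) • (∑ b ∈ Finset.Iio a, ε b • u b - ∑ b ∈ Finset.Iio a, u b) := by
  unfold keySumLe
  have hz : (1 / 2 : ℝ) • (∑ b ∈ Finset.Iio a, ε b • u b - ∑ b ∈ Finset.Iio a, u b) =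
      ∑ i, u i + (1 / 2 : ℝ) • (∑ b ∈ Finset.Iio a, ε b • u b - ∑ b ∈ Finset.Iio a, u b) := by
    rw [hu, zero_add]
  rw [hz, sum_Iio_ite, sum_Iio_ite, ← Finset.sum_sub_distrib, Finset.smul_sum,
    ← Finset.sum_add_distrib]
  apply Finset.sum_congr rfl
  intro b _
  simp only [key_le_minus h b]
  by_cases hba : b < a
  · have hab : ¬ a ≤ b := not_le.mpr hba
    rcases hε b with hb | hb
    · simp only [hb, hba, hab, or_false, if_true, one_smul]
      module
    · have hne : (-1 : ℝ) ≠ 1 := by norm_num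
      simp only [hb, hba, hab, or_false, if_true, hne, if_false, neg_smul, one_smul]
      module
  · have hab : a ≤ b := not_lt.mp hba
    simp [hba, hab]

include hε hu in
lemma keySumLt_minus {a : Fin N} (h : ε a ≠ 1) :
    keySumLt u ε a = (1 / 2 : ℝ) • (∑ b ∈ Finset.Iic a, ε b • u b - ∑ b ∈ Finset.Iic a, u b) := by
  unfold keySumLt
  have hz : (1 / 2 : ℝ) • (∑ b ∈ Finset.Iic a, ε b • u b - ∑ b ∈ Finset.Iic a, u b) =
      ∑ i, u i + (1 / 2 : ℝ) • (∑ b ∈ Finset.Iic a, ε b • u b - ∑ b ∈ Finset.Iic a, u b) := by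
    rw [hu, zero_add]
  rw [hz, sum_Iic_ite, sum_Iic_ite, ← Finset.sum_sub_distrib, Finset.smul_sum,
    ← Finset.sum_add_distrib]
  apply Finset.sum_congr rfl
  intro b _
  simp only [key_lt_minus h b]
  by_cases hba : b ≤ a
  · have hab : ¬ a < b := not_lt.mpr hba
    rcases hε b with hb | hb
    · simp only [hb, hba, hab, or_false, if_true, one_smul]
      module
    · have hne : (-1 : ℝ) ≠ 1 := by norm_num
      simp only [hb, hba, hab, or_false, if_true, hne, if_false, neg_smul, one_smul]
      module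
  · have hab : a < b := not_le.mp hba
    simp [hba, hab]

include hε hu in
/-- The cost at the two ends of a step of the new order is controlled by the old order and the
signed sums. -/
lemma cost_step (a : Fin N) :
    expCost (keySumLe u ε a) + expCost (keySumLt u ε a) ≤
      (expCost (∑ b ∈ Finset.Iic a, u b) + expCost (∑ b ∈ Finset.Iio a, u b) +
       expCost (∑ b ∈ Finset.Iic a, ε b • u b) + expCost (∑ b ∈ Finset.Iio a, ε b • u b)) / 2 := by
  by_cases h : ε a = 1
  · rw [keySumLe_plus u ε hε h, keySumLt_plus u ε hε h]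
    have h1 := expCost_half_add (∑ b ∈ Finset.Iic a, u b) (∑ b ∈ Finset.Iic a, ε b • u b)
    have h2 := expCost_half_add (∑ b ∈ Finset.Iio a, u b) (∑ b ∈ Finset.Iio a, ε b • u b)
    linarith
  · rw [keySumLe_minus u ε hε hu h, keySumLt_minus u ε hε hu h]
    have h1 := expCost_half_sub (∑ b ∈ Finset.Iio a, u b) (∑ b ∈ Finset.Iio a, ε b • u b)
    have h2 := expCost_half_sub (∑ b ∈ Finset.Iic a, u b) (∑ b ∈ Finset.Iic a, ε b • u b)
    linarith

end Pointwise

/-- The order obtained by sorting with the key. -/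
def signOrder {N : ℕ} (ε : Fin N → ℝ) : Equiv.Perm (Fin N) := Tuple.sort (signKey ε)

lemma signOrder_strictMono {N : ℕ} (ε : Fin N → ℝ) :
    StrictMono (signKey ε ∘ signOrder ε) :=
  (Tuple.monotone_sort (signKey ε)).strictMono_of_injective
    ((signKey_inj ε).comp (signOrder ε).injective)

lemma sum_signOrder_Iic {N : ℕ} (u : Fin N → Sp d) (ε : Fin N → ℝ) (k : Fin N) :
    ∑ i ∈ Finset.Iic k, u (signOrder ε i) = keySumLe u ε (signOrder ε k) := by
  unfold keySumLe
  rw [sum_Iic_ite (fun i => u (signOrder ε i)) k,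
    ← Equiv.sum_comp (signOrder ε) (fun b => if signKey ε b ≤ signKey ε (signOrder ε k) then u b else 0)]
  apply Finset.sum_congr rfl
  intro i _
  have := (signOrder_strictMono ε).le_iff_le (a := i) (b := k)
  simp only [Function.comp] at this
  simp only [this]

lemma sum_signOrder_Iio {N : ℕ} (u : Fin N → Sp d) (ε : Fin N → ℝ) (k : Fin N) :
    ∑ i ∈ Finset.Iio k, u (signOrder ε i) = keySumLt u ε (signOrder ε k) := by
  unfold keySumLt
  rw [sum_Iio_ite (fun i => u (signOrder ε i)) k,
    ← Equiv.sum_comp (signOrder ε) (fun b => if signKey ε b < signKey ε (signOrder ε k) then u b else 0)]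
  apply Finset.sum_congr rfl
  intro i _
  have := (signOrder_strictMono ε).lt_iff_lt (a := i) (b := k)
  simp only [Function.comp] at this
  simp only [this]

/-- Cost of an order. -/
def orderCost {N : ℕ} (v : Fin N → Sp d) (π : Equiv.Perm (Fin N)) : ℝ :=
  ∑ k, expCost (∑ i ∈ Finset.Iic k, v (π i))

/-- The average Steinitz theorem: there is an order whose partial sums have small exponential
average. -/
theorem exists_good_order {N : ℕ} (v : Fin N → Sp d) (hv : ∀ i, ‖v i‖ ≤ 1) (hz : ∑ i, v i = 0) :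
    ∃ π : Equiv.Perm (Fin N), orderCost v π ≤ (N : ℝ) * (2 : ℝ) ^ ((d : ℝ) / 2) := by
  obtain ⟨π, hπ⟩ := Finite.exists_min (orderCost v)
  refine ⟨π, ?_⟩
  set u : Fin N → Sp d := fun i => v (π i) with hu
  have hu0 : ∑ i, u i = 0 := by
    rw [hu]
    simp only
    rw [Equiv.sum_comp π v]
    exact hz
  have hunorm : ∀ i, ‖extendZero u i‖ ≤ 1 := by
    intro i
    unfold extendZero
    split_ifs with h
    · exact hv _
    · simp
  obtain ⟨εn, hεn, hbound⟩ := double_bound (extendZero u) hunorm N
  set ε : Fin N → ℝ := fun i => εn i.val with hε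
  have hεs : ∀ i, ε i = 1 ∨ ε i = -1 := fun i => hεn i.val
  set τ := signOrder ε with hτ
  have hnew : orderCost v (τ.trans π) = ∑ a, expCost (keySumLe u ε a) := by
    unfold orderCost
    rw [← Equiv.sum_comp τ (fun a => expCost (keySumLe u ε a))]
    apply Finset.sum_congr rfl
    intro k _
    rw [← sum_signOrder_Iic u ε k]
    rfl
  have hnew2 : orderCost v (τ.trans π) = ∑ a, expCost (keySumLt u ε a) := by
    have h0 : ∑ i, u (τ i) = 0 := by
      rw [Equiv.sum_comp τ u]
      exact hu0
    have hs := shift_sum (fun i => u (τ i)) h0 expCost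
    unfold orderCost
    have e1 : ∑ k, expCost (∑ i ∈ Finset.Iic k, v ((τ.trans π) i)) =
        ∑ k, expCost (∑ i ∈ Finset.Iic k, u (τ i)) := rfl
    rw [e1, hs, ← Equiv.sum_comp τ (fun a => expCost (keySumLt u ε a))]
    apply Finset.sum_congr rfl
    intro k _
    rw [← sum_signOrder_Iio u ε k]
  have hold : orderCost v π = ∑ a, expCost (∑ b ∈ Finset.Iic a, u b) := rfl
  have hold2 : orderCost v π = ∑ a, expCost (∑ b ∈ Finset.Iio a, u b) := by
    rw [hold]
    exact shift_sum u hu0 expCost
  have hsigned : ∑ a, (expCost (∑ b ∈ Finset.Iic a, ε b • u b) +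
      expCost (∑ b ∈ Finset.Iio a, ε b • u b)) ≤ 2 * (N : ℝ) * (2 : ℝ) ^ ((d : ℝ) / 2) := by
    refine le_of_eq_of_le ?_ hbound
    rw [← Fin.sum_univ_eq_sum_range (fun a => expCost (∑ j ∈ Finset.range (a + 1),
      εn j • extendZero u j) + expCost (∑ j ∈ Finset.range a, εn j • extendZero u j)) N]
    apply Finset.sum_congr rfl
    intro a _
    rw [← sum_Iic_eq_range a (fun j => εn j • extendZero u j),
      ← sum_Iio_eq_range a (fun j => εn j • extendZero u j)]
    simp only [extendZero_val, hε]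
  have hstep := Finset.sum_le_sum (fun a (_ : a ∈ Finset.univ) => cost_step u ε hεs hu0 a)
  rw [Finset.sum_add_distrib, ← Finset.sum_div, Finset.sum_add_distrib, Finset.sum_add_distrib,
    Finset.sum_add_distrib, ← hnew, ← hnew2, ← hold, ← hold2] at hstep
  have hsplit := Finset.sum_add_distrib (s := Finset.univ)
    (f := fun a => expCost (∑ b ∈ Finset.Iic a, ε b • u b))
    (g := fun a => expCost (∑ b ∈ Finset.Iio a, ε b • u b))
  rw [hsplit] at hsigned
  have hmin := hπ (τ.trans π)
  linarith

end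

end Vale.Agent.helper7
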