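import Vale.Agent.helper7.StarSpace

/-!
Backward recursion with the star transform: existence of signs for additive costs along the
partial sums.
-/

open MeasureTheory Set

namespace Vale.Agent.helper7

noncomputable section

variable {d : ℕ}

/-- The cost to go, from index `k` with `n` steps remaining. -/
def pot (v : ℕ → Sp d) (ψ : ℕ → Sp d → ℝ) : ℕ → ℕ → Sp d → ℝ
  | _, 0 => fun _ => 0
  | k, n + 1 => starT (fun x => ψ k x + pot v ψ (k + 1) n x) (v k)

lemma pot_props (v : ℕ → Sp d) (ψ : ℕ → Sp d → ℝ) (hψ : ∀ k, ConvexOn ℝ univ (ψ k))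
    (hψ0 : ∀ k x, 0 ≤ ψ k x) (n : ℕ) :
    ∀ k, ConvexOn ℝ univ (pot v ψ k n) ∧ ∀ x, 0 ≤ pot v ψ k n x := by
  induction n with
  | zero =>
    intro k
    exact ⟨convexOn_const _ convex_univ, fun _ => le_rfl⟩
  | succ n ih =>
    intro k
    obtain ⟨h1, h2⟩ := ih (k + 1)
    have hc : ConvexOn ℝ univ (fun x => ψ k x + pot v ψ (k + 1) n x) := (hψ k).add h1
    have h0 : ∀ x, 0 ≤ ψ k x + pot v ψ (k + 1) n x := fun x => add_nonneg (hψ0 k x) (h2 x)
    exact ⟨starT_convex hc h0 (v k), fun x => starT_nonneg h0 (v k) x⟩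

lemma pot_integral (v : ℕ → Sp d) (hv : ∀ i, ‖v i‖ ≤ 1) (ψ : ℕ → Sp d → ℝ)
    (hψ : ∀ k, ConvexOn ℝ univ (ψ k)) (hψ0 : ∀ k x, 0 ≤ ψ k x) (n : ℕ) :
    ∀ k, ∫⁻ x, ENNReal.ofReal (pot v ψ k n x * gaussW x) ≤
      ∑ i ∈ Finset.range n, ∫⁻ x, ENNReal.ofReal (ψ (k + i) x * gaussW x) := by
  induction n with
  | zero =>
    intro k
    simp [pot]
  | succ n ih =>
    intro k
    obtain ⟨h1, h2⟩ := pot_props v ψ hψ hψ0 n (k + 1)
    have hc : ConvexOn ℝ univ (fun x => ψ k x + pot v ψ (k + 1) n x) := (hψ k).add h1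
    have h0 : ∀ x, 0 ≤ ψ k x + pot v ψ (k + 1) n x := fun x => add_nonneg (hψ0 k x) (h2 x)
    have hstep := star_integral hc h0 (v k) (hv k)
    have hsplit : ∫⁻ x, ENNReal.ofReal ((ψ k x + pot v ψ (k + 1) n x) * gaussW x) =
        (∫⁻ x, ENNReal.ofReal (ψ k x * gaussW x)) +
        ∫⁻ x, ENNReal.ofReal (pot v ψ (k + 1) n x * gaussW x) := by
      have hm : Measurable (fun x => ENNReal.ofReal (ψ k x * gaussW x)) :=
        ((cont_of_convex (hψ k)).mul gaussW_cont).measurable.ennreal_ofReal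
      rw [← lintegral_add_left hm]
      apply lintegral_congr
      intro x
      rw [← ENNReal.ofReal_add (mul_nonneg (hψ0 k x) (gaussW_pos x).le)
        (mul_nonneg (h2 x) (gaussW_pos x).le)]
      congr 1
      ring
    have hih := ih (k + 1)
    rw [Finset.sum_range_succ']
    have e : ∑ i ∈ Finset.range n, ∫⁻ x, ENNReal.ofReal (ψ (k + (i + 1)) x * gaussW x) =
        ∑ i ∈ Finset.range n, ∫⁻ x, ENNReal.ofReal (ψ (k + 1 + i) x * gaussW x) :=
      Finset.sum_congr rfl (fun i _ => by rw [show k + (i + 1) = k + 1 + i by ring])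
    rw [e, add_zero]
    calc ∫⁻ x, ENNReal.ofReal (pot v ψ k (n + 1) x * gaussW x)
        ≤ ∫⁻ x, ENNReal.ofReal ((ψ k x + pot v ψ (k + 1) n x) * gaussW x) := hstep
      _ = _ := hsplit
      _ ≤ _ := (add_comm _ _).le.trans (add_le_add hih le_rfl)

lemma pot_signs (v : ℕ → Sp d) (ψ : ℕ → Sp d → ℝ)
    (hψ : ∀ k, ConvexOn ℝ univ (ψ k)) (hψ0 : ∀ k x, 0 ≤ ψ k x) (n : ℕ) :
    ∀ k x, ∃ ε : ℕ → ℝ, (∀ i, ε i = 1 ∨ ε i = -1) ∧
      ∑ i ∈ Finset.range n, ψ (k + i) (x + ∑ j ∈ Finset.range (i + 1), ε j • v (k + j)) ≤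
        pot v ψ k n x := by
  induction n with
  | zero =>
    intro k x
    exact ⟨fun _ => 1, fun _ => Or.inl rfl, by simp [pot]⟩
  | succ n ih =>
    intro k x
    obtain ⟨h1, h2⟩ := pot_props v ψ hψ hψ0 n (k + 1)
    have hc : ConvexOn ℝ univ (fun x => ψ k x + pot v ψ (k + 1) n x) := (hψ k).add h1
    have hmin : min (ψ k (x + v k) + pot v ψ (k + 1) n (x + v k))
        (ψ k (x - v k) + pot v ψ (k + 1) n (x - v k)) ≤ pot v ψ k (n + 1) x :=
      min_le_starT hc (v k) x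
    have hsign : ∃ σ : ℝ, (σ = 1 ∨ σ = -1) ∧
        ψ k (x + σ • v k) + pot v ψ (k + 1) n (x + σ • v k) ≤ pot v ψ k (n + 1) x := by
      rcases min_le_iff.mp hmin with h | h
      · exact ⟨1, Or.inl rfl, by simpa using h⟩
      · exact ⟨-1, Or.inr rfl, by simpa [sub_eq_add_neg] using h⟩
    obtain ⟨σ, hσ, hle⟩ := hsign
    obtain ⟨ε', hε', hsum⟩ := ih (k + 1) (x + σ • v k)
    refine ⟨fun i => Nat.casesOn i σ ε', ?_, ?_⟩
    · intro i
      cases i with
      | zero => exact hσ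
      | succ i => exact hε' i
    · rw [Finset.sum_range_succ']
      refine le_trans ?_ hle
      rw [add_comm]
      apply add_le_add
      · simp
      · refine le_of_eq_of_le ?_ hsum
        apply Finset.sum_congr rfl
        intro i _
        have e1 : k + (i + 1) = k + 1 + i := by ring
        rw [e1]
        congr 1
        rw [Finset.sum_range_succ' _ (i + 1)]
        have e2 : ∑ j ∈ Finset.range (i + 1),
            (Nat.casesOn (j + 1) σ ε' : ℝ) • v (k + (j + 1)) =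
            ∑ j ∈ Finset.range (i + 1), ε' j • v (k + 1 + j) :=
          Finset.sum_congr rfl (fun j _ => by rw [show k + (j + 1) = k + 1 + j by ring])
        rw [e2, Nat.add_zero]
        show x + (_ + σ • v k) = _
        abel

/-- Master inequality: signs for arbitrary convex nonnegative costs. -/
theorem master_signs (v : ℕ → Sp d) (hv : ∀ i, ‖v i‖ ≤ 1) (ψ : ℕ → Sp d → ℝ)
    (hψ : ∀ k, ConvexOn ℝ univ (ψ k)) (hψ0 : ∀ k x, 0 ≤ ψ k x) (N : ℕ) :
    ∃ ε : ℕ → ℝ, (∀ i, ε i = 1 ∨ ε i = -1) ∧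
      ENNReal.ofReal (∑ i ∈ Finset.range N, ψ i (∑ j ∈ Finset.range (i + 1), ε j • v j)) *
        ∫⁻ x : Sp d, ENNReal.ofReal (gaussW x) ≤
      ∑ i ∈ Finset.range N, ∫⁻ x, ENNReal.ofReal (ψ i x * gaussW x) := by
  obtain ⟨ε, hε, hsum⟩ := pot_signs v ψ hψ hψ0 N 0 0
  refine ⟨ε, hε, ?_⟩
  obtain ⟨h1, h2⟩ := pot_props v ψ hψ hψ0 N 0
  have hJ := jensen_origin h1 h2
  have hI := pot_integral v hv ψ hψ hψ0 N 0
  simp only [zero_add] at hsum hI
  calc _ ≤ ENNReal.ofReal (pot v ψ 0 N 0) * ∫⁻ x : Sp d, ENNReal.ofReal (gaussW x) := by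
        gcongr
    _ ≤ _ := hJ.trans hI

end

end Vale.Agent.helper7
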