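import Vale.Agent.helper7.StarLine

/-!
The star transform of a convex function on Euclidean space: it is convex, it dominates the
minimum of the two shifts, and its Gaussian integral does not exceed that of the function.
-/

open MeasureTheory Set

namespace Vale.Agent.helper7

noncomputable section

abbrev Sp (d : ℕ) := EuclideanSpace ℝ (Fin d)

variable {d : ℕ}

/-- The larger of the two shifted values. -/
def shiftMax (F : Sp d → ℝ) (v x : Sp d) (r : ℝ) : ℝ :=
  max (F (x + (r + 1) • v)) (F (x + (r - 1) • v))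

/-- The star transform. -/
def starT (F : Sp d → ℝ) (v x : Sp d) : ℝ :=
  ⨅ r : Icc (-2 : ℝ) 2, shiftMax F v x r

/-- The Gaussian weight. -/
def gaussW (x : Sp d) : ℝ := Real.exp (-((1 / 25 : ℝ) * ‖x‖ ^ 2))

instance nonemptyIcc22 : Nonempty (Icc (-2 : ℝ) 2) := ⟨⟨0, by norm_num, by norm_num⟩⟩

lemma gaussW_pos (x : Sp d) : 0 < gaussW x := Real.exp_pos _

lemma gaussW_cont : Continuous (gaussW : Sp d → ℝ) := by
  unfold gaussW
  fun_prop

lemma bdd_shift {F : Sp d → ℝ} (hF0 : ∀ x, 0 ≤ F x) (v x : Sp d) :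
    BddBelow (range fun r : Icc (-2 : ℝ) 2 => shiftMax F v x r) :=
  ⟨0, by
    rintro _ ⟨r, rfl⟩
    exact le_max_of_le_left (hF0 _)⟩

lemma starT_le {F : Sp d → ℝ} (hF0 : ∀ x, 0 ≤ F x) (v x : Sp d) {r : ℝ}
    (hr : r ∈ Icc (-2 : ℝ) 2) : starT F v x ≤ shiftMax F v x r :=
  ciInf_le (bdd_shift hF0 v x) (⟨r, hr⟩ : Icc (-2 : ℝ) 2)

lemma le_starT {F : Sp d → ℝ} {v x : Sp d} {a : ℝ}
    (h : ∀ r ∈ Icc (-2 : ℝ) 2, a ≤ shiftMax F v x r) : a ≤ starT F v x :=
  le_ciInf (fun r => h r.1 r.2)

lemma starT_nonneg {F : Sp d → ℝ} (hF0 : ∀ x, 0 ≤ F x) (v x : Sp d) : 0 ≤ starT F v x :=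
  le_starT (fun _ _ => le_max_of_le_left (hF0 _))

lemma cont_of_convex {F : Sp d → ℝ} (hF : ConvexOn ℝ univ F) : Continuous F :=
  continuousOn_univ.mp (ConvexOn.continuousOn isOpen_univ hF)

lemma shiftMax_cont {F : Sp d → ℝ} (hF : ConvexOn ℝ univ F) (v x : Sp d) :
    Continuous (shiftMax F v x) := by
  have hc := cont_of_convex hF
  unfold shiftMax
  fun_prop

lemma exists_min_shift {F : Sp d → ℝ} (hF : ConvexOn ℝ univ F) (hF0 : ∀ x, 0 ≤ F x) (v x : Sp d) :
    ∃ r ∈ Icc (-2 : ℝ) 2, starT F v x = shiftMax F v x r := by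
  obtain ⟨r, hr, hmin⟩ := (isCompact_Icc (a := (-2 : ℝ)) (b := 2)).exists_isMinOn
    ⟨0, by norm_num, by norm_num⟩ (shiftMax_cont hF v x).continuousOn
  exact ⟨r, hr, le_antisymm (starT_le hF0 v x hr) (le_starT (fun s hs => hmin hs))⟩

lemma starT_convex {F : Sp d → ℝ} (hF : ConvexOn ℝ univ F) (hF0 : ∀ x, 0 ≤ F x) (v : Sp d) :
    ConvexOn ℝ univ (starT F v) := by
  refine ⟨convex_univ, fun x _ y _ a b ha hb hab => ?_⟩
  obtain ⟨rx, hrx, ex⟩ := exists_min_shift hF hF0 v x
  obtain ⟨ry, hry, ey⟩ := exists_min_shift hF hF0 v y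
  simp only [smul_eq_mul]
  rw [ex, ey]
  have hr : a * rx + b * ry ∈ Icc (-2 : ℝ) 2 := by
    constructor
    · nlinarith [hrx.1, hry.1]
    · nlinarith [hrx.2, hry.2]
  refine (starT_le hF0 v _ hr).trans ?_
  unfold shiftMax
  apply max_le
  · have e : a • x + b • y + (a * rx + b * ry + 1) • v =
        a • (x + (rx + 1) • v) + b • (y + (ry + 1) • v) := by
      calc a • x + b • y + (a * rx + b * ry + 1) • v
          = a • x + b • y + (a * rx + b * ry + (a + b)) • v := by rw [hab]
        _ = _ := by module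
    rw [e]
    refine (hF.2 (mem_univ _) (mem_univ _) ha hb hab).trans ?_
    simp only [smul_eq_mul]
    exact add_le_add (mul_le_mul_of_nonneg_left (le_max_left _ _) ha)
      (mul_le_mul_of_nonneg_left (le_max_left _ _) hb)
  · have e : a • x + b • y + (a * rx + b * ry - 1) • v =
        a • (x + (rx - 1) • v) + b • (y + (ry - 1) • v) := by
      calc a • x + b • y + (a * rx + b * ry - 1) • v
          = a • x + b • y + (a * rx + b * ry - (a + b)) • v := by rw [hab]
        _ = _ := by module
    rw [e]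
    refine (hF.2 (mem_univ _) (mem_univ _) ha hb hab).trans ?_
    simp only [smul_eq_mul]
    exact add_le_add (mul_le_mul_of_nonneg_left (le_max_right _ _) ha)
      (mul_le_mul_of_nonneg_left (le_max_right _ _) hb)

/-- Restriction of a convex function to a line. -/
lemma line_convex {F : Sp d → ℝ} (hF : ConvexOn ℝ univ F) (x v : Sp d) :
    ConvexOn ℝ univ (fun s : ℝ => F (x + s • v)) := by
  refine ⟨convex_univ, fun s _ u _ a b ha hb hab => ?_⟩
  have e : x + (a • s + b • u) • v = a • (x + s • v) + b • (x + u • v) := by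
    calc x + (a • s + b • u) • v = (a + b) • x + (a • s + b • u) • v := by rw [hab, one_smul]
      _ = _ := by simp only [smul_eq_mul]; module
  simp only [e]
  exact hF.2 (mem_univ _) (mem_univ _) ha hb hab

lemma min_le_starT {F : Sp d → ℝ} (hF : ConvexOn ℝ univ F) (v x : Sp d) :
    min (F (x + v)) (F (x - v)) ≤ starT F v x := by
  apply le_starT
  intro r hr
  have hl := line_convex hF x v
  unfold shiftMax
  rcases le_total 0 r with h0 | h0
  · refine (min_le_left _ _).trans ?_
    have := hl.le_max_of_mem_Icc (x := r - 1) (y := r + 1) (z := 1) (mem_univ _) (mem_univ _)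
      ⟨by linarith [hr.2], by linarith⟩
    simp only [one_smul] at this
    rwa [max_comm]
  · refine (min_le_right _ _).trans ?_
    have := hl.le_max_of_mem_Icc (x := r - 1) (y := r + 1) (z := -1) (mem_univ _) (mem_univ _)
      ⟨by linarith, by linarith [hr.1]⟩
    simp only [neg_smul, one_smul] at this
    rw [sub_eq_add_neg x v, max_comm]
    exact this

/-- Fubini along a fixed direction, without coordinates. -/
lemma shear_lintegral (e : Sp d) (he : ‖e‖ = 1) (H : Sp d → ENNReal) (hH : Measurable H) :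
    ∫⁻ x, H x = ∫⁻ x, (Icc (0 : ℝ) 1).indicator (fun _ => (1 : ENNReal)) (inner ℝ x e) *
      ∫⁻ s : ℝ, H (x + s • e) := by
  set k : ℝ → ENNReal := (Icc (0 : ℝ) 1).indicator (fun _ => (1 : ENNReal)) with hk
  have hkm : Measurable k := measurable_const.indicator measurableSet_Icc
  have hee : inner ℝ e e = (1 : ℝ) := by
    rw [real_inner_self_eq_norm_sq, he]; norm_num
  have hint1 : ∀ a : ℝ, ∫⁻ s : ℝ, k (a - s) = 1 := by
    intro a
    rw [lintegral_sub_left_eq_self k a, hk, lintegral_indicator measurableSet_Icc]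
    simp
  have hm1 : Measurable (fun p : Sp d × ℝ => k (inner ℝ p.1 e) * H (p.1 + p.2 • e)) := by
    apply Measurable.mul
    · exact hkm.comp (by fun_prop)
    · exact hH.comp (by fun_prop)
  have hm2 : Measurable (fun p : ℝ × Sp d => k (inner ℝ p.2 e - p.1) * H p.2) := by
    apply Measurable.mul
    · exact hkm.comp (by fun_prop)
    · exact hH.comp (by fun_prop)
  calc ∫⁻ x, H x = ∫⁻ y, (∫⁻ s : ℝ, k (inner ℝ y e - s)) * H y := by
        simp only [hint1, one_mul]
    _ = ∫⁻ y, ∫⁻ s : ℝ, k (inner ℝ y e - s) * H y := by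
        apply lintegral_congr
        intro y
        exact (lintegral_mul_const (H y)
          (show Measurable (fun s : ℝ => k (inner ℝ y e - s)) from hkm.comp (by fun_prop))).symm
    _ = ∫⁻ s : ℝ, ∫⁻ y, k (inner ℝ y e - s) * H y := by
        apply lintegral_lintegral_swap
        exact (hm2.comp measurable_swap).aemeasurable
    _ = ∫⁻ s : ℝ, ∫⁻ x, k (inner ℝ x e) * H (x + s • e) := by
        apply lintegral_congr
        intro s
        have h := lintegral_add_right_eq_self (μ := (volume : Measure (Sp d)))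
          (fun y => k (inner ℝ y e - s) * H y) (s • e)
        rw [← h]
        apply lintegral_congr
        intro x
        have e1 : inner ℝ (x + s • e) e - s = inner ℝ x e := by
          rw [inner_add_left, inner_smul_left, hee]
          simp
        simp only [e1]
    _ = ∫⁻ x, ∫⁻ s : ℝ, k (inner ℝ x e) * H (x + s • e) := by
        apply lintegral_lintegral_swap
        exact (hm1.comp measurable_swap).aemeasurable
    _ = ∫⁻ x, k (inner ℝ x e) * ∫⁻ s : ℝ, H (x + s • e) := by
        apply lintegral_congr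
        intro x
        exact lintegral_const_mul (k (inner ℝ x e))
          (show Measurable (fun s : ℝ => H (x + s • e)) from hH.comp (by fun_prop))

/-- The Gaussian weight along a line. -/
lemma gaussW_line (x e : Sp d) (he : ‖e‖ = 1) (s : ℝ) :
    gaussW (x + s • e) = Real.exp (-((1 / 25 : ℝ) * (‖x‖ ^ 2 - (inner ℝ x e) ^ 2))) *
      Real.exp (-((1 / 25 : ℝ) * (s - (-(inner ℝ x e))) ^ 2)) := by
  unfold gaussW
  rw [← Real.exp_add]
  congr 1
  rw [norm_add_sq_real, norm_smul, inner_smul_right, he]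
  simp only [Real.norm_eq_abs, mul_one, sq_abs]
  ring

lemma sqrt_bound {t : ℝ} (ht : t ≤ 1) : 8 * t ≤ Real.sqrt (Real.pi / (1 / 25)) := by
  have h1 : (8 : ℝ) ≤ Real.sqrt (Real.pi / (1 / 25)) := by
    apply Real.le_sqrt_of_sq_le
    have := Real.pi_gt_three
    norm_num
    nlinarith
  linarith

/-- The star inequality on Euclidean space. -/
theorem star_integral {F : Sp d → ℝ} (hF : ConvexOn ℝ univ F) (hF0 : ∀ x, 0 ≤ F x)
    (v : Sp d) (hv : ‖v‖ ≤ 1) :
    ∫⁻ x, ENNReal.ofReal (starT F v x * gaussW x) ≤ ∫⁻ x, ENNReal.ofReal (F x * gaussW x) := by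
  by_cases hv0 : v = 0
  · subst hv0
    have : ∀ x, starT F 0 x = F x := by
      intro x
      unfold starT shiftMax
      simp
    simp only [this, le_refl]
  set t := ‖v‖ with ht
  have htpos : 0 < t := norm_pos_iff.mpr hv0
  set e : Sp d := t⁻¹ • v with he
  have hen : ‖e‖ = 1 := by
    rw [he, norm_smul, norm_inv, Real.norm_eq_abs, abs_of_pos htpos, ← ht]
    field_simp
  have hve : v = t • e := by
    rw [he, smul_smul, mul_inv_cancel₀ htpos.ne', one_smul]
  have hFc := cont_of_convex hF
  have hSc := cont_of_convex (starT_convex hF hF0 v)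
  have hGc : Continuous (gaussW : Sp d → ℝ) := gaussW_cont
  have hm1 : Measurable (fun x => ENNReal.ofReal (starT F v x * gaussW x)) :=
    (hSc.mul hGc).measurable.ennreal_ofReal
  have hm2 : Measurable (fun x => ENNReal.ofReal (F x * gaussW x)) :=
    (hFc.mul hGc).measurable.ennreal_ofReal
  rw [shear_lintegral e hen _ hm1, shear_lintegral e hen _ hm2]
  apply lintegral_mono
  intro x
  apply mul_le_mul_right
  simp only [gaussW_line x e hen]
  have hline := line_convex hF x e
  have key := star_line (f := fun s : ℝ => F (x + s • e)) (T := fun s : ℝ => starT F v (x + s • e))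
    hline (by fun_prop) (fun s => hF0 _) (fun s => starT_nonneg hF0 v _)
    (Real.exp (-((1 / 25 : ℝ) * (‖x‖ ^ 2 - (inner ℝ x e) ^ 2)))) (1 / 25) (-(inner ℝ x e)) t
    (Real.exp_pos _).le (by norm_num) htpos (sqrt_bound hv)
    (by
      intro r hr s
      have h := starT_le hF0 v (x + s • e) hr
      unfold shiftMax at h
      have e1 : x + s • e + (r + 1) • v = x + (s + (r + 1) * t) • e := by
        rw [hve]; module
      have e2 : x + s • e + (r - 1) • v = x + (s + (r - 1) * t) • e := by
        rw [hve]; module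
      rw [e1, e2] at h
      exact h)
  exact key

/-- Jensen at the origin. -/
theorem jensen_origin {F : Sp d → ℝ} (hF : ConvexOn ℝ univ F) (hF0 : ∀ x, 0 ≤ F x) :
    ENNReal.ofReal (F 0) * ∫⁻ x : Sp d, ENNReal.ofReal (gaussW x) ≤
      ∫⁻ x, ENNReal.ofReal (F x * gaussW x) := by
  have hFc := cont_of_convex hF
  have hGc : Continuous (gaussW : Sp d → ℝ) := gaussW_cont
  have hneg : ∫⁻ x, ENNReal.ofReal (F (-x) * gaussW x) = ∫⁻ x, ENNReal.ofReal (F x * gaussW x) := by
    have h := lintegral_neg_eq_self (μ := (volume : Measure (Sp d)))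
      (fun x => ENNReal.ofReal (F x * gaussW x))
    rw [← h]
    apply lintegral_congr
    intro x
    have : gaussW (-x) = gaussW x := by
      unfold gaussW
      rw [norm_neg]
    rw [this]
  have hm2 : Measurable (fun x => ENNReal.ofReal (F x * gaussW x)) :=
    (hFc.mul hGc).measurable.ennreal_ofReal
  have hpoint : ∀ x : Sp d, ENNReal.ofReal (F 0) * ENNReal.ofReal (gaussW x) +
      ENNReal.ofReal (F 0) * ENNReal.ofReal (gaussW x) ≤
      ENNReal.ofReal (F x * gaussW x) + ENNReal.ofReal (F (-x) * gaussW x) := by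
    intro x
    have hG := (gaussW_pos x).le
    rw [← ENNReal.ofReal_mul (hF0 0),
      ← ENNReal.ofReal_add (mul_nonneg (hF0 0) hG) (mul_nonneg (hF0 0) hG),
      ← ENNReal.ofReal_add (mul_nonneg (hF0 x) hG) (mul_nonneg (hF0 (-x)) hG)]
    apply ENNReal.ofReal_le_ofReal
    have h := hF.2 (mem_univ x) (mem_univ (-x)) (show (0 : ℝ) ≤ 1 / 2 by norm_num)
      (show (0 : ℝ) ≤ 1 / 2 by norm_num) (by norm_num)
    have e : (1 / 2 : ℝ) • x + (1 / 2 : ℝ) • (-x) = 0 := by
      rw [smul_neg]; simp
    rw [e] at h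
    simp only [smul_eq_mul] at h
    nlinarith
  have hGm : Measurable (fun x : Sp d => ENNReal.ofReal (gaussW x)) :=
    hGc.measurable.ennreal_ofReal
  have hint : ∫⁻ x : Sp d, (ENNReal.ofReal (F 0) * ENNReal.ofReal (gaussW x) +
      ENNReal.ofReal (F 0) * ENNReal.ofReal (gaussW x)) ≤
      ∫⁻ x, (ENNReal.ofReal (F x * gaussW x) + ENNReal.ofReal (F (-x) * gaussW x)) :=
    lintegral_mono hpoint
  rw [lintegral_add_left (hGm.const_mul _), lintegral_add_left hm2, hneg,
    lintegral_const_mul _ hGm] at hint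
  rw [← two_mul, ← two_mul] at hint
  exact (ENNReal.mul_le_mul_iff_right (by norm_num) (by norm_num)).mp hint

end

end Vale.Agent.helper7
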